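import Vale.Agent.P049.TS.Drift.T12c

/-!
Final form of the drift lemmas for `tr Z` and `tr Z² - N`: polynomial right-hand sides.

Parameters (all `≥ 0`): `T₄ ≤ b⁴`, `T₂ ≤ t²`, `Σ Z_aa² ≤ s²`, `Σ (w_a - 1)² ≤ v²`, `Σ w_a² ≤ w²`,
number of non-admissible ordered pairs `≤ e²`, `Σ h_ab² ≤ H²` over `F × F`.
-/

set_option linter.unusedSectionVars false

namespace Vale.Agent.P049.TS.D12

open Matrix Finset

variable {ι : Type*} [Fintype ι] [DecidableEq ι]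

variable {Z : Matrix ι ι ℝ} {F : Finset ι} {A : Finset (ι × ι)} {h : ι → ι → ℝ}

/-- the common hypotheses on the current state, for one sign -/
structure Ctl (F : Finset ι) (Z : Matrix ι ι ℝ) (b t s v w : ℝ) : Prop where
  symm : Z.IsSymm
  supp : ∀ a, a ∉ F → ∀ b, Z a b = 0
  row : ∀ a ∈ F, ∑ b, Z a b = 1
  b0 : 0 ≤ b
  t0 : 0 ≤ t
  s0 : 0 ≤ s
  v0 : 0 ≤ v
  w0 : 0 ≤ w
  T4 : (Z ^ 4).trace ≤ b ^ 4
  T2 : (Z ^ 2).trace ≤ t ^ 2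
  /-- `‖Z² - 1‖² ≤ b⁴` on `F × F` (follows from `T4` if `#F ≤ 2 tr Z²`) -/
  X0 : (Z ^ 4).trace - 2 * (Z ^ 2).trace + F.card ≤ b ^ 4
  S : ∑ a ∈ F, Z a a ^ 2 ≤ s ^ 2
  V : ∑ a ∈ F, ((Z ^ 2) a a - 1) ^ 2 ≤ v ^ 2
  W : ∑ a ∈ F, (Z ^ 2) a a ^ 2 ≤ w ^ 2

variable {b t s v w : ℝ}

theorem sqrt_le_of_sq {x y : ℝ} (h : x ≤ y ^ 2) (hy : 0 ≤ y) : √x ≤ y := by
  rw [← Real.sqrt_sq hy]; exact Real.sqrt_le_sqrt h

theorem Ctl.frZ (c : Ctl F Z b t s v w) : fr F Z ≤ t := by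
  have h1 := fr_Z c.symm c.supp
  exact abs_le_of_sq_le_sq' (by rw [h1]; exact c.T2) c.t0 |>.2

theorem Ctl.fr0 (c : Ctl F Z b t s v w) : fr F (Xk Z 0) ≤ b ^ 2 := by
  have h1 := fr_X0 c.symm c.supp
  refine abs_le_of_sq_le_sq' ?_ (sq_nonneg b) |>.2
  rw [h1]
  have := c.X0
  nlinarith

theorem Ctl.opB (c : Ctl F Z b t s v w) : Mat.OpB Z b := Mat.opB_of_trace_four c.symm c.T4

theorem Ctl.fr1 (c : Ctl F Z b t s v w) : fr F (Xk Z 1) ≤ b ^ 3 := by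
  have h1 := fr_Xk_le c.symm c.supp c.b0 c.opB 1
  have h2 := mul_le_mul_of_nonneg_left c.fr0 (pow_nonneg c.b0 1)
  calc _ ≤ _ := h1
    _ ≤ _ := h2
    _ = _ := by ring

theorem Ctl.nrd (c : Ctl F Z b t s v w) : nr F (fun a => Z a a) ≤ s :=
  sqrt_le_of_sq c.S c.s0

theorem Ctl.nrg (c : Ctl F Z b t s v w) : nr F (fun a => Xk Z 0 a a) ≤ v := by
  refine sqrt_le_of_sq (le_trans (le_of_eq (Finset.sum_congr rfl fun a _ => ?_)) c.V) c.v0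
  simp [Xk_eq]

theorem Ctl.nrw (c : Ctl F Z b t s v w) : nr F (fun a => (Z ^ 2) a a) ≤ w :=
  sqrt_le_of_sq c.W c.w0

theorem Ctl.nr1 (c : Ctl F Z b t s v w) : nr F (fun a => Xk Z 1 a a) ≤ 2 * b * w + 2 * s := by
  have h1 := nr_X1_le c.symm c.supp c.b0 c.opB c.W c.S
  have h2 : 0 ≤ b * w := mul_nonneg c.b0 c.w0
  have h3 := mul_nonneg h2 c.s0
  refine abs_le_of_sq_le_sq' ?_ (by have := c.s0; linarith) |>.2
  nlinarith [sq_nonneg (b * w), sq_nonneg s]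

theorem trace_sub_eq (c : Ctl F Z b t s v w) :
    (∑ a ∈ F, Z a a) * ∑ a ∈ F, Xk Z 0 a a = Z.trace * ((Z ^ 2).trace - F.card) := by
  rw [sum_diag_F c.supp, sum_diag_X0 c.supp]

variable {e H : ℝ}

/-- **mean of the increment of `T₁ = tr Z`** -/
theorem T1_mean' (c : Ctl F Z b t s v w) (hA : A ⊆ F ×ˢ F)
    (hadm : ∀ p ∈ A, p.1 ≠ p.2 ∧ PairOK Z p.1 p.2)
    (hh : ∀ p ∈ A, |h p.1 p.2| ≤ 1 / 2) (he : 0 ≤ e) (hH : 0 ≤ H)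
    (hE : (((F ×ˢ F) \ A).card : ℝ) ≤ e ^ 2) (hHh : ∑ p ∈ F ×ˢ F, h p.1 p.2 ^ 2 ≤ H ^ 2) :
    |∑ p ∈ A, (1 - h p.1 p.2) * ((upd Z p.1 p.2).trace - Z.trace) -
      2 * (Z.trace * ((Z ^ 2).trace - F.card)) +
      2 * ∑ p ∈ A, h p.1 p.2 * (Z ^ 2) p.1 p.2| ≤
    2 * e * (b ^ 2 + s * v) + 2 * H * (s * v) + 6 * ((t + s ^ 2) * (b ^ 2 + 2 * (s * v))) := by
  have h1 := T1_mean c.symm hA (fun p hp => ⟨(hadm p hp).1, (hadm p hp).2.1, (hadm p hp).2.2⟩) hh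
    (sum_Xk c.supp c.symm c.row 0)
  rw [trace_sub_eq c] at h1
  have e1 : ∑ p ∈ A, h p.1 p.2 * Xk Z 0 p.1 p.2 = ∑ p ∈ A, h p.1 p.2 * (Z ^ 2) p.1 p.2 :=
    Finset.sum_congr rfl fun p hp => by rw [Xk_zero_ne (hadm p hp).1]
  rw [e1] at h1
  refine h1.trans ?_
  have k1 := c.frZ
  have k2 := c.fr0
  have k3 := c.nrd
  have k4 := c.nrg
  have k5 : √(((F ×ˢ F) \ A).card : ℝ) ≤ e := sqrt_le_of_sq hE he
  have k6 : fr F h ≤ H := sqrt_le_of_sq hHh hH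
  have n1 := nr_nonneg F (fun a => Z a a)
  have n2 := nr_nonneg F (fun a => Xk Z 0 a a)
  have n3 := fr_nonneg F (Xk Z 0)
  have n4 := fr_nonneg F h
  have n5 := fr_nonneg F Z
  have n6 := Real.sqrt_nonneg (((F ×ˢ F) \ A).card : ℝ)
  have hsv : nr F (fun a => Z a a) * nr F (fun a => Xk Z 0 a a) ≤ s * v :=
    mul_le_mul k3 k4 n2 c.s0
  have := c.s0
  have := c.v0
  have := c.t0
  gcongr

/-- **second moment of the increment of `T₁`** -/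
theorem T1_sq' (c : Ctl F Z b t s v w) (hA : A ⊆ F ×ˢ F)
    (hadm : ∀ p ∈ A, p.1 ≠ p.2 ∧ PairOK Z p.1 p.2) :
    ∑ p ∈ A, ((upd Z p.1 p.2).trace - Z.trace) ^ 2 ≤ 27 * b ^ 4 + 24 * (s * v) ^ 2 := by
  have h1 := T1_sq c.symm hA fun p hp => ⟨(hadm p hp).1, (hadm p hp).2.1, (hadm p hp).2.2⟩
  refine h1.trans ?_
  have k2 := c.fr0
  have k3 := c.nrd
  have k4 := c.nrg
  have n1 := nr_nonneg F (fun a => Z a a)
  have n2 := nr_nonneg F (fun a => Xk Z 0 a a)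
  have n3 := fr_nonneg F (Xk Z 0)
  have hsv : nr F (fun a => Z a a) * nr F (fun a => Xk Z 0 a a) ≤ s * v :=
    mul_le_mul k3 k4 n2 c.s0
  have e4 : b ^ 4 = (b ^ 2) ^ 2 := by ring
  rw [e4]
  gcongr

/-- **mean of the increment of `D = T₂ - N`** -/
theorem T2_mean' (c : Ctl F Z b t s v w) (hA : A ⊆ F ×ˢ F)
    (hadm : ∀ p ∈ A, p.1 ≠ p.2 ∧ PairOK Z p.1 p.2)
    (hh : ∀ p ∈ A, |h p.1 p.2| ≤ 1 / 2) (he : 0 ≤ e) (hH : 0 ≤ H)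
    (hE : (((F ×ˢ F) \ A).card : ℝ) ≤ e ^ 2) (hHh : ∑ p ∈ F ×ˢ F, h p.1 p.2 ^ 2 ≤ H ^ 2) :
    |∑ p ∈ A, (1 - h p.1 p.2) * ((upd Z p.1 p.2 ^ 2).trace - (Z ^ 2).trace + 2) -
      (4 * (Z.trace * ((Z ^ 3).trace - Z.trace)) + 2 * ((Z ^ 2).trace - F.card) ^ 2) +
      4 * ∑ p ∈ A, h p.1 p.2 * (Z ^ 3 - Z) p.1 p.2| ≤
    4 * e * (b ^ 3 + s * (2 * b * w + 2 * s) + v ^ 2) +
    4 * H * (s * (2 * b * w + 2 * s) + v ^ 2) +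
    18 * ((t + s ^ 2) * (b ^ 3 + 2 * (s * (2 * b * w + 2 * s)) + v ^ 2)) +
    30 * (b ^ 4 + 2 * (s * v) ^ 2) := by
  have h1 := T2_mean c.symm hA (fun p hp => ⟨(hadm p hp).1, (hadm p hp).2.1, (hadm p hp).2.2⟩) hh
    (sum_Xk c.supp c.symm c.row 1)
  rw [sum_diag_F c.supp, sum_diag_X0 c.supp, sum_diag_X1 c.supp] at h1
  have e1 : ∑ p ∈ A, h p.1 p.2 * Xk Z 1 p.1 p.2 = ∑ p ∈ A, h p.1 p.2 * (Z ^ 3 - Z) p.1 p.2 :=
    Finset.sum_congr rfl fun p hp => by rw [Xk_eq, pow_one]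
  rw [e1] at h1
  refine h1.trans ?_
  have k1 := c.frZ
  have k2 := c.fr0
  have k2' := c.fr1
  have k3 := c.nrd
  have k4 := c.nrg
  have k4' := c.nr1
  have k5 : √(((F ×ˢ F) \ A).card : ℝ) ≤ e := sqrt_le_of_sq hE he
  have k6 : fr F h ≤ H := sqrt_le_of_sq hHh hH
  have n1 := nr_nonneg F (fun a => Z a a)
  have n2 := nr_nonneg F (fun a => Xk Z 0 a a)
  have n2' := nr_nonneg F (fun a => Xk Z 1 a a)
  have n3 := fr_nonneg F (Xk Z 0)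
  have n3' := fr_nonneg F (Xk Z 1)
  have n4 := fr_nonneg F h
  have n5 := fr_nonneg F Z
  have n6 := Real.sqrt_nonneg (((F ×ˢ F) \ A).card : ℝ)
  have hsv : nr F (fun a => Z a a) * nr F (fun a => Xk Z 0 a a) ≤ s * v :=
    mul_le_mul k3 k4 n2 c.s0
  have hsa : nr F (fun a => Z a a) * nr F (fun a => Xk Z 1 a a) ≤ s * (2 * b * w + 2 * s) :=
    mul_le_mul k3 k4' n2' c.s0
  have := c.s0
  have := c.v0
  have := c.t0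
  have := c.b0
  have := c.w0
  have e4 : b ^ 4 = (b ^ 2) ^ 2 := by ring
  rw [e4]
  gcongr

/-- **second moment of the increment of `D`** -/
theorem T2_sq' (c : Ctl F Z b t s v w) (hA : A ⊆ F ×ˢ F)
    (hadm : ∀ p ∈ A, p.1 ≠ p.2 ∧ PairOK Z p.1 p.2) :
    ∑ p ∈ A, ((upd Z p.1 p.2 ^ 2).trace - (Z ^ 2).trace + 2) ^ 2 ≤
      343 * b ^ 6 + 350 * (s * (2 * b * w + 2 * s)) ^ 2 + 175 * v ^ 4 + 2800 * w ^ 4 +
        5600 * (s ^ 4 * v ^ 4) := by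
  have h1 := T2_sq c.symm hA fun p hp => ⟨(hadm p hp).1, (hadm p hp).2.1, (hadm p hp).2.2⟩
  refine h1.trans ?_
  have k2' := c.fr1
  have k3 := c.nrd
  have k4 := c.nrg
  have k4' := c.nr1
  have k7 := c.nrw
  have n1 := nr_nonneg F (fun a => Z a a)
  have n2 := nr_nonneg F (fun a => Xk Z 0 a a)
  have n2' := nr_nonneg F (fun a => Xk Z 1 a a)
  have n3' := fr_nonneg F (Xk Z 1)
  have n7 := nr_nonneg F (fun a => (Z ^ 2) a a)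
  have hsa : nr F (fun a => Z a a) * nr F (fun a => Xk Z 1 a a) ≤ s * (2 * b * w + 2 * s) :=
    mul_le_mul k3 k4' n2' c.s0
  have e6 : b ^ 6 = (b ^ 3) ^ 2 := by ring
  have e4 : ∀ x : ℝ, x ^ 4 = (x ^ 2) ^ 2 := fun x => by ring
  rw [e6, e4 v, e4 w, e4 s]
  have := c.s0
  gcongr

end Vale.Agent.P049.TS.D12
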