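import Mathlib

/-!
Cauchy–Schwarz for arrays indexed by pairs of stubs.
`fr F f` is the Hilbert–Schmidt norm of the array `f` on `F × F`, `nr F u` the `ℓ²` norm of `u`.
-/

set_option linter.unusedSectionVars false

namespace Vale.Agent.P049.TS.D12

open Finset

variable {ι : Type*} [DecidableEq ι]

noncomputable def fr (F : Finset ι) (f : ι → ι → ℝ) : ℝ := √(∑ p ∈ F ×ˢ F, f p.1 p.2 ^ 2)

noncomputable def nr (F : Finset ι) (u : ι → ℝ) : ℝ := √(∑ a ∈ F, u a ^ 2)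

variable {F : Finset ι} {A : Finset (ι × ι)}

theorem fr_nonneg (F : Finset ι) (f : ι → ι → ℝ) : 0 ≤ fr F f := Real.sqrt_nonneg _

theorem nr_nonneg (F : Finset ι) (u : ι → ℝ) : 0 ≤ nr F u := Real.sqrt_nonneg _

theorem fr_sq (F : Finset ι) (f : ι → ι → ℝ) : fr F f ^ 2 = ∑ p ∈ F ×ˢ F, f p.1 p.2 ^ 2 :=
  Real.sq_sqrt (Finset.sum_nonneg fun _ _ => sq_nonneg _)

theorem nr_sq (F : Finset ι) (u : ι → ℝ) : nr F u ^ 2 = ∑ a ∈ F, u a ^ 2 :=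
  Real.sq_sqrt (Finset.sum_nonneg fun _ _ => sq_nonneg _)

theorem fr_prod (F : Finset ι) (u v : ι → ℝ) : fr F (fun a b => u a * v b) = nr F u * nr F v := by
  unfold fr nr
  rw [← Real.sqrt_mul (Finset.sum_nonneg fun _ _ => sq_nonneg _), Finset.sum_mul_sum,
    Finset.sum_product]
  simp only [mul_pow]

theorem fr_prod' (F : Finset ι) (u v : ι → ℝ) : fr F (fun a b => u b * v a) = nr F u * nr F v := by
  rw [mul_comm (nr F u), ← fr_prod]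
  simp only [mul_comm]

/-- Cauchy–Schwarz -/
theorem sum_abs_mul_le (hA : A ⊆ F ×ˢ F) (f g : ι → ι → ℝ) :
    ∑ p ∈ A, |f p.1 p.2| * |g p.1 p.2| ≤ fr F f * fr F g := by
  refine (Real.sum_mul_le_sqrt_mul_sqrt A (fun p => |f p.1 p.2|) (fun p => |g p.1 p.2|)).trans ?_
  unfold fr
  apply mul_le_mul
  · apply Real.sqrt_le_sqrt
    simp only [sq_abs]
    exact Finset.sum_le_sum_of_subset_of_nonneg hA fun _ _ _ => sq_nonneg _
  · apply Real.sqrt_le_sqrt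
    simp only [sq_abs]
    exact Finset.sum_le_sum_of_subset_of_nonneg hA fun _ _ _ => sq_nonneg _
  · exact Real.sqrt_nonneg _
  · exact Real.sqrt_nonneg _

theorem sum_sq_le (hA : A ⊆ F ×ˢ F) (f : ι → ι → ℝ) :
    ∑ p ∈ A, f p.1 p.2 ^ 2 ≤ fr F f ^ 2 := by
  rw [fr_sq]
  exact Finset.sum_le_sum_of_subset_of_nonneg hA fun _ _ _ => sq_nonneg _

theorem abs_sum_le_card (hA : A ⊆ F ×ˢ F) (f : ι → ι → ℝ) :
    |∑ p ∈ A, f p.1 p.2| ≤ √(A.card : ℝ) * fr F f := by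
  refine (Finset.abs_sum_le_sum_abs _ _).trans ?_
  have h := Real.sum_mul_le_sqrt_mul_sqrt A (fun _ => (1 : ℝ)) (fun p => |f p.1 p.2|)
  simp only [one_mul, one_pow, Finset.sum_const, nsmul_eq_mul, mul_one, sq_abs] at h
  refine h.trans (mul_le_mul_of_nonneg_left ?_ (Real.sqrt_nonneg _))
  unfold fr
  apply Real.sqrt_le_sqrt
  exact Finset.sum_le_sum_of_subset_of_nonneg hA fun _ _ _ => sq_nonneg _

/-- weighted sum: `Σ_A h f` for `|h|` controlled in Hilbert–Schmidt norm -/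
theorem abs_sum_weight_le (hA : A ⊆ F ×ˢ F) (h f : ι → ι → ℝ) :
    |∑ p ∈ A, h p.1 p.2 * f p.1 p.2| ≤ fr F h * fr F f := by
  refine (Finset.abs_sum_le_sum_abs _ _).trans ?_
  simp only [abs_mul]
  exact sum_abs_mul_le hA h f

/-- full sum minus the excluded part -/
theorem sum_adm_eq (hA : A ⊆ F ×ˢ F) (f : ι → ι → ℝ) :
    ∑ p ∈ A, f p.1 p.2 = ∑ p ∈ F ×ˢ F, f p.1 p.2 - ∑ p ∈ (F ×ˢ F) \ A, f p.1 p.2 := by
  rw [← Finset.sum_sdiff hA]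
  ring

theorem abs_sum_adm_sub_le (hA : A ⊆ F ×ˢ F) (f : ι → ι → ℝ) :
    |∑ p ∈ A, f p.1 p.2 - ∑ p ∈ F ×ˢ F, f p.1 p.2| ≤
      √(((F ×ˢ F) \ A).card : ℝ) * fr F f := by
  rw [sum_adm_eq hA, sub_sub_cancel_left, abs_neg]
  exact abs_sum_le_card Finset.sdiff_subset f

theorem sum_prod_full (F : Finset ι) (u v : ι → ℝ) :
    ∑ p ∈ F ×ˢ F, u p.1 * v p.2 = (∑ a ∈ F, u a) * ∑ b ∈ F, v b := by
  rw [Finset.sum_mul_sum, Finset.sum_product]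

theorem sum_prod_full' (F : Finset ι) (u v : ι → ℝ) :
    ∑ p ∈ F ×ˢ F, u p.2 * v p.1 = (∑ a ∈ F, u a) * ∑ b ∈ F, v b := by
  rw [mul_comm (∑ a ∈ F, u a), ← sum_prod_full]
  exact Finset.sum_congr rfl fun p _ => mul_comm _ _

/-- fourth powers of a product array -/
theorem sum_prod_four_le (hA : A ⊆ F ×ˢ F) (u v : ι → ℝ) :
    ∑ p ∈ A, (u p.1 * v p.2) ^ 4 ≤ (nr F u ^ 2) ^ 2 * (nr F v ^ 2) ^ 2 := by
  have h4 : ∀ w : ι → ℝ, ∑ a ∈ F, w a ^ 4 ≤ (nr F w ^ 2) ^ 2 := by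
    intro w
    rw [nr_sq, sq (∑ a ∈ F, w a ^ 2), Finset.sum_mul]
    refine Finset.sum_le_sum fun a ha => ?_
    have : w a ^ 2 ≤ ∑ b ∈ F, w b ^ 2 :=
      Finset.single_le_sum (f := fun b => w b ^ 2) (fun _ _ => sq_nonneg _) ha
    calc w a ^ 4 = w a ^ 2 * w a ^ 2 := by ring
      _ ≤ w a ^ 2 * ∑ b ∈ F, w b ^ 2 := mul_le_mul_of_nonneg_left this (sq_nonneg _)
  calc ∑ p ∈ A, (u p.1 * v p.2) ^ 4 ≤ ∑ p ∈ F ×ˢ F, (u p.1 * v p.2) ^ 4 :=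
        Finset.sum_le_sum_of_subset_of_nonneg hA fun p _ _ => by positivity
    _ = (∑ a ∈ F, u a ^ 4) * ∑ b ∈ F, v b ^ 4 := by
        rw [Finset.sum_mul_sum, Finset.sum_product]
        simp only [mul_pow]
    _ ≤ _ := mul_le_mul (h4 u) (h4 v) (Finset.sum_nonneg fun _ _ => by positivity) (by positivity)

end Vale.Agent.P049.TS.D12
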