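import Vale.Agent.P049.TS.Shell.Join4

/-!
Pointwise expansion of the increments of `tr Z` and `tr Z²` at an admissible pair
(`|Z a b| ≤ 1/8`, `|Z a a * Z b b| ≤ 1/8`).
-/

set_option linter.unusedSectionVars false

namespace Vale.Agent.P049.TS.D12

open Matrix Finset

variable {ι : Type*} [Fintype ι] [DecidableEq ι]

section scalar

variable {z p q : ℝ}

theorem al_ge (hz : |z| ≤ 1 / 8) (hpq : |p * q| ≤ 1 / 8) : 5 / 8 ≤ (1 - z) ^ 2 - p * q := by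
  rw [abs_le] at hz hpq
  nlinarith [hz.1, hz.2, hpq.1, hpq.2]

theorem inv_sub_one (hz : |z| ≤ 1 / 8) (hpq : |p * q| ≤ 1 / 8) :
    |((1 - z) ^ 2 - p * q)⁻¹ - 1| ≤ 4 * (|z| + |p * q|) := by
  have h := al_ge hz hpq
  have hpos : 0 < (1 - z) ^ 2 - p * q := by linarith
  have e : ((1 - z) ^ 2 - p * q)⁻¹ - 1 = (z * (2 - z) + p * q) / ((1 - z) ^ 2 - p * q) := by
    field_simp
    ring
  rw [e, abs_div, abs_of_pos hpos, div_le_iff₀ hpos]
  have h1 : |z * (2 - z) + p * q| ≤ 17 / 8 * |z| + |p * q| := by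
    refine (abs_add_le _ _).trans ?_
    rw [abs_mul]
    have : |2 - z| ≤ 17 / 8 := by
      rw [abs_le] at hz ⊢
      constructor <;> linarith [hz.1, hz.2]
    nlinarith [abs_nonneg z]
  have h2 : 4 * (|z| + |p * q|) * (5 / 8) ≤ 4 * (|z| + |p * q|) * ((1 - z) ^ 2 - p * q) := by
    apply mul_le_mul_of_nonneg_left h
    positivity
  nlinarith [abs_nonneg z, abs_nonneg (p * q)]

theorem inv_mul_sub_one (hz : |z| ≤ 1 / 8) (hpq : |p * q| ≤ 1 / 8) :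
    |((1 - z) ^ 2 - p * q)⁻¹ * (1 - z) - 1| ≤ 2 * (|z| + |p * q|) := by
  have h := al_ge hz hpq
  have hpos : 0 < (1 - z) ^ 2 - p * q := by linarith
  have e : ((1 - z) ^ 2 - p * q)⁻¹ * (1 - z) - 1 =
      (z * (1 - z) + p * q) / ((1 - z) ^ 2 - p * q) := by
    field_simp
    ring
  rw [e, abs_div, abs_of_pos hpos, div_le_iff₀ hpos]
  have h1 : |z * (1 - z) + p * q| ≤ 9 / 8 * |z| + |p * q| := by
    refine (abs_add_le _ _).trans ?_
    rw [abs_mul]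
    have : |1 - z| ≤ 9 / 8 := by
      rw [abs_le] at hz ⊢
      constructor <;> linarith [hz.1, hz.2]
    nlinarith [abs_nonneg z]
  have h2 : 2 * (|z| + |p * q|) * (5 / 8) ≤ 2 * (|z| + |p * q|) * ((1 - z) ^ 2 - p * q) := by
    apply mul_le_mul_of_nonneg_left h
    positivity
  nlinarith [abs_nonneg z, abs_nonneg (p * q)]

theorem inv_le (hz : |z| ≤ 1 / 8) (hpq : |p * q| ≤ 1 / 8) :
    |((1 - z) ^ 2 - p * q)⁻¹| ≤ 8 / 5 := by
  have h := al_ge hz hpq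
  have hpos : 0 < (1 - z) ^ 2 - p * q := by linarith
  rw [abs_of_pos (inv_pos.2 hpos), inv_le_comm₀ hpos (by norm_num)]
  norm_num
  linarith

theorem inv_mul_le (hz : |z| ≤ 1 / 8) (hpq : |p * q| ≤ 1 / 8) :
    |((1 - z) ^ 2 - p * q)⁻¹ * (1 - z)| ≤ 9 / 5 := by
  rw [abs_mul]
  have h1 := inv_le hz hpq
  have : |1 - z| ≤ 9 / 8 := by
    rw [abs_le] at hz ⊢
    constructor <;> linarith [hz.1, hz.2]
  calc _ ≤ 8 / 5 * (9 / 8) := mul_le_mul h1 this (abs_nonneg _) (by norm_num)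
    _ = 9 / 5 := by norm_num

end scalar


variable {Z : Matrix ι ι ℝ} {a b : ι}

/-- `Z^k (Z² - 1)` -/
noncomputable def Xk (Z : Matrix ι ι ℝ) (k : ℕ) : Matrix ι ι ℝ := Z ^ k * (Z ^ 2 - 1)

theorem Xk_isSymm (hZ : Z.IsSymm) (k : ℕ) : (Xk Z k).IsSymm := by
  unfold Xk
  have h : (Z ^ k)ᵀ = Z ^ k := by rw [Matrix.transpose_pow, hZ.eq]
  have h2 : (Z ^ 2)ᵀ = Z ^ 2 := by rw [Matrix.transpose_pow, hZ.eq]
  rw [Matrix.IsSymm, Matrix.transpose_mul, Matrix.transpose_sub, h, h2, Matrix.transpose_one,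
    Matrix.mul_sub, Matrix.sub_mul, Matrix.mul_one, Matrix.one_mul, ← pow_add, ← pow_add,
    Nat.add_comm]

theorem Xk_eq (k : ℕ) : Xk Z k = Z ^ (k + 2) - Z ^ k := by
  rw [Xk, Matrix.mul_sub, Matrix.mul_one, ← pow_add]

theorem Om_eq (j : ℕ) : Om Z a b j = Bm Z a b * blk (Xk Z j) a b := rfl

theorem trace_Bm_blk {M : Matrix ι ι ℝ} (hM : M.IsSymm) :
    (Bm Z a b * blk M a b).trace =
      (al Z a b)⁻¹ * (Z b b * M a a + Z a a * M b b) +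
      2 * ((al Z a b)⁻¹ * (1 - Z a b)) * M a b := by
  have hs : M b a = M a b := hM.apply a b
  simp only [Matrix.trace, Matrix.diag, Fin.sum_univ_two,
    Matrix.mul_apply, Bm, blk, Matrix.smul_apply, Matrix.of_apply, Matrix.cons_val_zero,
    Matrix.cons_val_one, smul_eq_mul, Matrix.cons_val', Matrix.cons_val_fin_one, hs]
  ring

theorem trace_Bm_blk_sq {M : Matrix ι ι ℝ} (hM : M.IsSymm) :
    ((Bm Z a b * blk M a b) ^ 2).trace =
      ((al Z a b)⁻¹ * (Z b b * M a a) + (al Z a b)⁻¹ * (1 - Z a b) * M a b) ^ 2 +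
      ((al Z a b)⁻¹ * (Z a a * M b b) + (al Z a b)⁻¹ * (1 - Z a b) * M a b) ^ 2 +
      2 * (((al Z a b)⁻¹ * (Z b b * M a b) + (al Z a b)⁻¹ * (1 - Z a b) * M b b) *
        ((al Z a b)⁻¹ * (Z a a * M a b) + (al Z a b)⁻¹ * (1 - Z a b) * M a a)) := by
  have hs : M b a = M a b := hM.apply a b
  simp only [sq, Matrix.trace, Matrix.diag, Fin.sum_univ_two,
    Matrix.mul_apply, Bm, blk, Matrix.smul_apply, Matrix.of_apply, Matrix.cons_val_zero,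
    Matrix.cons_val_one, smul_eq_mul, Matrix.cons_val', Matrix.cons_val_fin_one, hs]
  ring

/-- the increment of `tr Z` -/
theorem dT1_eq (hab : a ≠ b) (hZ : Z.IsSymm) (h : al Z a b ≠ 0) :
    (upd Z a b).trace - Z.trace = (al Z a b)⁻¹ * (Z b b * Xk Z 0 a a + Z a a * Xk Z 0 b b) +
      2 * ((al Z a b)⁻¹ * (1 - Z a b)) * Xk Z 0 a b := by
  rw [trace_upd_Om hab hZ h, Om_eq, trace_Bm_blk (Xk_isSymm hZ 0)]
  ring

/-- the increment of `tr Z² - N` -/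
theorem dT2_eq (hab : a ≠ b) (hZ : Z.IsSymm) (h : al Z a b ≠ 0) :
    (upd Z a b ^ 2).trace - (Z ^ 2).trace + 2 =
      2 * ((al Z a b)⁻¹ * (Z b b * Xk Z 1 a a + Z a a * Xk Z 1 b b)) +
      4 * ((al Z a b)⁻¹ * (1 - Z a b)) * Xk Z 1 a b +
      (((al Z a b)⁻¹ * (Z b b * Xk Z 0 a a) + (al Z a b)⁻¹ * (1 - Z a b) * Xk Z 0 a b) ^ 2 +
      ((al Z a b)⁻¹ * (Z a a * Xk Z 0 b b) + (al Z a b)⁻¹ * (1 - Z a b) * Xk Z 0 a b) ^ 2 +
      2 * (((al Z a b)⁻¹ * (Z b b * Xk Z 0 a b) + (al Z a b)⁻¹ * (1 - Z a b) * Xk Z 0 b b) *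
        ((al Z a b)⁻¹ * (Z a a * Xk Z 0 a b) + (al Z a b)⁻¹ * (1 - Z a b) * Xk Z 0 a a))) := by
  rw [trace_upd_sq_Om hab hZ h, Om_eq, Om_eq, trace_Bm_blk (Xk_isSymm hZ 1),
    trace_Bm_blk_sq (Xk_isSymm hZ 0)]
  ring

/-- (P1) -/
theorem dT1_pointwise (hab : a ≠ b) (hZ : Z.IsSymm) (hz : |Z a b| ≤ 1 / 8)
    (hpq : |Z a a * Z b b| ≤ 1 / 8) :
    |(upd Z a b).trace - Z.trace -
      (2 * Xk Z 0 a b + Z b b * Xk Z 0 a a + Z a a * Xk Z 0 b b)| ≤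
      4 * (|Z a b| + |Z a a * Z b b|) *
        (|Xk Z 0 a b| + |Z b b * Xk Z 0 a a| + |Z a a * Xk Z 0 b b|) := by
  have hal := al_ge hz hpq
  have h : al Z a b ≠ 0 := by unfold al; linarith
  rw [dT1_eq hab hZ h]
  have e1 := inv_sub_one hz hpq
  have e2 := inv_mul_sub_one hz hpq
  change |(al Z a b)⁻¹ - 1| ≤ _ at e1
  change |(al Z a b)⁻¹ * (1 - Z a b) - 1| ≤ _ at e2
  have e : (al Z a b)⁻¹ * (Z b b * Xk Z 0 a a + Z a a * Xk Z 0 b b) +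
      2 * ((al Z a b)⁻¹ * (1 - Z a b)) * Xk Z 0 a b -
      (2 * Xk Z 0 a b + Z b b * Xk Z 0 a a + Z a a * Xk Z 0 b b) =
      2 * ((al Z a b)⁻¹ * (1 - Z a b) - 1) * Xk Z 0 a b +
      ((al Z a b)⁻¹ - 1) * (Z b b * Xk Z 0 a a) + ((al Z a b)⁻¹ - 1) * (Z a a * Xk Z 0 b b) := by
    ring
  rw [e]
  refine (abs_add_three _ _ _).trans ?_
  rw [abs_mul, abs_mul, abs_mul, abs_mul ((al Z a b)⁻¹ - 1) (Z a a * _)]
  have k1 := abs_nonneg (Xk Z 0 a b)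
  have k2 := abs_nonneg (Z b b * Xk Z 0 a a)
  have k3 := abs_nonneg (Z a a * Xk Z 0 b b)
  have := mul_le_mul_of_nonneg_right e2 k1
  have := mul_le_mul_of_nonneg_right e1 k2
  have := mul_le_mul_of_nonneg_right e1 k3
  rw [abs_two]
  nlinarith

theorem scal_quad {r m u s : ℝ} (hr2 : r ^ 2 ≤ 64 / 25) (hm2 : m ^ 2 ≤ 81 / 25) :
    (r * u + m * s) ^ 2 ≤ 128 / 25 * u ^ 2 + 162 / 25 * s ^ 2 := by
  have h1 : (r * u + m * s) ^ 2 ≤ 2 * (r ^ 2 * u ^ 2) + 2 * (m ^ 2 * s ^ 2) := by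
    nlinarith [sq_nonneg (r * u - m * s)]
  have h2 := mul_le_mul_of_nonneg_right hr2 (sq_nonneg u)
  have h3 := mul_le_mul_of_nonneg_right hm2 (sq_nonneg s)
  linarith

theorem scal_mul {k u s : ℝ} (hk : |k| ≤ 72 / 25) :
    |k * (u * s)| ≤ 36 / 25 * u ^ 2 + 36 / 25 * s ^ 2 := by
  rw [abs_mul]
  have h1 : |u * s| ≤ (u ^ 2 + s ^ 2) / 2 := by
    rw [abs_le]
    constructor <;> nlinarith [sq_nonneg (u + s), sq_nonneg (u - s)]
  have h2 := mul_le_mul hk h1 (abs_nonneg _) (by norm_num)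
  linarith

theorem scal_sq_le {r c : ℝ} (hr : |r| ≤ c) : r ^ 2 ≤ c ^ 2 := by
  rw [← sq_abs]
  exact pow_le_pow_left₀ (abs_nonneg r) hr 2

/-- second order part -/
theorem dT2_scalar_b {p q r m ga gb s : ℝ} (hpq : |p * q| ≤ 1 / 8)
    (hr' : |r| ≤ 8 / 5) (hm' : |m| ≤ 9 / 5) :
    |(r * (q * ga) + m * s) ^ 2 + (r * (p * gb) + m * s) ^ 2 +
        2 * (r ^ 2 * (p * q) * s ^ 2 + r * m * ((q * ga) * s) + r * m * ((p * gb) * s))| ≤
      20 * (s ^ 2 + (q * ga) ^ 2 + (p * gb) ^ 2) := by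
  have hr2 : r ^ 2 ≤ 64 / 25 := (scal_sq_le hr').trans (by norm_num)
  have hm2 : m ^ 2 ≤ 81 / 25 := (scal_sq_le hm').trans (by norm_num)
  have hrm : |r * m| ≤ 72 / 25 := by
    rw [abs_mul]
    calc _ ≤ 8 / 5 * (9 / 5) := mul_le_mul hr' hm' (abs_nonneg _) (by norm_num)
      _ = _ := by norm_num
  have d1 : |r ^ 2 * (p * q) * s ^ 2| ≤ 8 / 25 * s ^ 2 := by
    rw [abs_mul, abs_mul, abs_of_nonneg (sq_nonneg r), abs_of_nonneg (sq_nonneg s)]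
    refine mul_le_mul_of_nonneg_right ?_ (sq_nonneg s)
    calc r ^ 2 * |p * q| ≤ 64 / 25 * (1 / 8) := mul_le_mul hr2 hpq (abs_nonneg _) (by norm_num)
      _ = 8 / 25 := by norm_num
  have d2 := scal_mul (u := q * ga) (s := s) hrm
  have d3 := scal_mul (u := p * gb) (s := s) hrm
  have c1 := scal_quad (u := q * ga) (s := s) hr2 hm2
  have c2 := scal_quad (u := p * gb) (s := s) hr2 hm2
  have c3 := abs_add_three (r ^ 2 * (p * q) * s ^ 2) (r * m * ((q * ga) * s))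
    (r * m * ((p * gb) * s))
  have c4 := abs_add_three ((r * (q * ga) + m * s) ^ 2) ((r * (p * gb) + m * s) ^ 2)
    (2 * (r ^ 2 * (p * q) * s ^ 2 + r * m * ((q * ga) * s) + r * m * ((p * gb) * s)))
  rw [abs_mul 2, abs_two, abs_of_nonneg (sq_nonneg (r * (q * ga) + m * s)),
    abs_of_nonneg (sq_nonneg (r * (p * gb) + m * s))] at c4
  have n4 := sq_nonneg s
  have n5 := sq_nonneg (q * ga)
  have n6 := sq_nonneg (p * gb)
  linarith

/-- first order part -/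
theorem dT2_scalar_a {t r m x y c w : ℝ} (ht0 : 0 ≤ t)
    (hr : |r - 1| ≤ 4 * t) (hm : |m - 1| ≤ 2 * t) (hm' : |m| ≤ 9 / 5) :
    |2 * (r - 1) * x + 2 * (r - 1) * y + 4 * (m - 1) * c +
        2 * ((m - 1) * (m + 1)) * w| ≤
      12 * (t * (|c| + |x| + |y| + |w|)) := by
  have hm1 : |m + 1| ≤ 14 / 5 := by
    have := abs_add_le m 1
    rw [abs_one] at this
    linarith
  have hmm : |(m - 1) * (m + 1)| ≤ 28 / 5 * t := by
    rw [abs_mul]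
    calc _ ≤ (2 * t) * (14 / 5) := mul_le_mul hm hm1 (abs_nonneg _) (by positivity)
      _ = _ := by ring
  have b1 : |2 * (r - 1) * x| ≤ 8 * (t * |x|) := by
    rw [abs_mul, abs_mul, abs_two]
    have := mul_le_mul_of_nonneg_right hr (abs_nonneg x)
    linarith
  have b2 : |2 * (r - 1) * y| ≤ 8 * (t * |y|) := by
    rw [abs_mul, abs_mul, abs_two]
    have := mul_le_mul_of_nonneg_right hr (abs_nonneg y)
    linarith
  have b3 : |4 * (m - 1) * c| ≤ 8 * (t * |c|) := by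
    rw [abs_mul, abs_mul, show |(4 : ℝ)| = 4 by norm_num]
    have := mul_le_mul_of_nonneg_right hm (abs_nonneg c)
    linarith
  have b4 : |2 * ((m - 1) * (m + 1)) * w| ≤ 12 * (t * |w|) := by
    rw [abs_mul, abs_mul 2, abs_two]
    have := mul_le_mul_of_nonneg_right hmm (abs_nonneg w)
    have := mul_nonneg ht0 (abs_nonneg w)
    linarith
  have h1 := abs_add_le (2 * (r - 1) * x + 2 * (r - 1) * y + 4 * (m - 1) * c)
    (2 * ((m - 1) * (m + 1)) * w)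
  have h2 := abs_add_three (2 * (r - 1) * x) (2 * (r - 1) * y) (4 * (m - 1) * c)
  have n1 := mul_nonneg ht0 (abs_nonneg x)
  have n2 := mul_nonneg ht0 (abs_nonneg y)
  have n3 := mul_nonneg ht0 (abs_nonneg c)
  have e5 : 12 * (t * (|c| + |x| + |y| + |w|)) =
      12 * (t * |c|) + 12 * (t * |x|) + 12 * (t * |y|) + 12 * (t * |w|) := by ring
  linarith

/-- scalar version of (P2) -/
theorem dT2_scalar {z p q r m A B c ga gb s : ℝ} (hpq : |p * q| ≤ 1 / 8)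
    (hr : |r - 1| ≤ 4 * (|z| + |p * q|)) (hm : |m - 1| ≤ 2 * (|z| + |p * q|))
    (hr' : |r| ≤ 8 / 5) (hm' : |m| ≤ 9 / 5) :
    |2 * (r * (q * A + p * B)) + 4 * m * c +
      ((r * (q * ga) + m * s) ^ 2 + (r * (p * gb) + m * s) ^ 2 +
        2 * ((r * (q * s) + m * gb) * (r * (p * s) + m * ga))) -
      (4 * c + 2 * (q * A) + 2 * (p * B) + 2 * (ga * gb))| ≤
      12 * ((|z| + |p * q|) * (|c| + |q * A| + |p * B| + |ga * gb|)) +
      20 * (s ^ 2 + (q * ga) ^ 2 + (p * gb) ^ 2) := by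
  have e : 2 * (r * (q * A + p * B)) + 4 * m * c +
      ((r * (q * ga) + m * s) ^ 2 + (r * (p * gb) + m * s) ^ 2 +
        2 * ((r * (q * s) + m * gb) * (r * (p * s) + m * ga))) -
      (4 * c + 2 * (q * A) + 2 * (p * B) + 2 * (ga * gb)) =
      (2 * (r - 1) * (q * A) + 2 * (r - 1) * (p * B) + 4 * (m - 1) * c +
        2 * ((m - 1) * (m + 1)) * (ga * gb)) +
      ((r * (q * ga) + m * s) ^ 2 + (r * (p * gb) + m * s) ^ 2 +
        2 * (r ^ 2 * (p * q) * s ^ 2 + r * m * ((q * ga) * s) + r * m * ((p * gb) * s))) := by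
    ring
  rw [e]
  exact (abs_add_le _ _).trans (add_le_add
    (dT2_scalar_a (by positivity) hr hm hm') (dT2_scalar_b hpq hr' hm'))

/-- (P2) -/
theorem dT2_pointwise (hab : a ≠ b) (hZ : Z.IsSymm) (hz : |Z a b| ≤ 1 / 8)
    (hpq : |Z a a * Z b b| ≤ 1 / 8) :
    |(upd Z a b ^ 2).trace - (Z ^ 2).trace + 2 -
      (4 * Xk Z 1 a b + 2 * (Z b b * Xk Z 1 a a) + 2 * (Z a a * Xk Z 1 b b) +
        2 * (Xk Z 0 a a * Xk Z 0 b b))| ≤
      12 * ((|Z a b| + |Z a a * Z b b|) *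
        (|Xk Z 1 a b| + |Z b b * Xk Z 1 a a| + |Z a a * Xk Z 1 b b| +
          |Xk Z 0 a a * Xk Z 0 b b|)) +
      20 * (Xk Z 0 a b ^ 2 + (Z b b * Xk Z 0 a a) ^ 2 + (Z a a * Xk Z 0 b b) ^ 2) := by
  have hal := al_ge hz hpq
  have h : al Z a b ≠ 0 := by unfold al; linarith
  rw [dT2_eq hab hZ h]
  have e1 := inv_sub_one hz hpq
  have e2 := inv_mul_sub_one hz hpq
  have e3 := inv_le hz hpq
  have e4 := inv_mul_le hz hpq
  change |(al Z a b)⁻¹ - 1| ≤ _ at e1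
  change |(al Z a b)⁻¹ * (1 - Z a b) - 1| ≤ _ at e2
  change |(al Z a b)⁻¹| ≤ _ at e3
  change |(al Z a b)⁻¹ * (1 - Z a b)| ≤ _ at e4
  exact dT2_scalar hpq e1 e2 e3 e4

end Vale.Agent.P049.TS.D12
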