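import Vale.Agent.P049.TS.Drift.T12a
import Vale.Agent.P049.TS.Drift.Arr
import Vale.Agent.P049.TS.Avg.Adm

/-!
Averages of the increments of `tr Z` and `tr Z² - N` over the admissible pairs.

`F` = the free stubs, `A ⊆ F × F` = the admissible ordered pairs, `h` = the tilt (`|h| ≤ 1/2`).
-/

set_option linter.unusedSectionVars false

namespace Vale.Agent.P049.TS.D12

open Matrix Finset

variable {ι : Type*} [Fintype ι] [DecidableEq ι]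

/-- the increment of `tr Z` -/
noncomputable def dT1 (Z : Matrix ι ι ℝ) (p : ι × ι) : ℝ := (upd Z p.1 p.2).trace - Z.trace

/-- the increment of `tr Z² - N` -/
noncomputable def dT2 (Z : Matrix ι ι ℝ) (p : ι × ι) : ℝ :=
  (upd Z p.1 p.2 ^ 2).trace - (Z ^ 2).trace + 2

variable {Z : Matrix ι ι ℝ} {F : Finset ι} {A : Finset (ι × ι)} {h : ι → ι → ℝ}

/-- the error factor `|z| + |pq|` against any array -/
theorem sum_small_mul_le (hA : A ⊆ F ×ˢ F) (f : ι → ι → ℝ) :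
    ∑ p ∈ A, (|Z p.1 p.2| + |Z p.1 p.1 * Z p.2 p.2|) * |f p.1 p.2| ≤
      (fr F Z + nr F (fun a => Z a a) ^ 2) * fr F f := by
  have h1 := sum_abs_mul_le hA Z f
  have h2 := sum_abs_mul_le hA (fun a b => Z a a * Z b b) f
  have h3 := fr_prod F (fun a => Z a a) (fun a => Z a a)
  simp only [add_mul, Finset.sum_add_distrib]
  rw [sq, ← h3]
  exact add_le_add h1 h2

theorem abs_one_sub_le {x : ℝ} (hx : |x| ≤ 1 / 2) : |1 - x| ≤ 3 / 2 := by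
  rw [abs_le] at hx ⊢
  constructor <;> linarith [hx.1, hx.2]

/-- a weighted sum of errors -/
theorem sum_weight_err_le (hh : ∀ p ∈ A, |h p.1 p.2| ≤ 1 / 2) {e g : ι × ι → ℝ}
    (he : ∀ p ∈ A, |e p| ≤ g p) :
    |∑ p ∈ A, (1 - h p.1 p.2) * e p| ≤ 3 / 2 * ∑ p ∈ A, g p := by
  refine (Finset.abs_sum_le_sum_abs _ _).trans ?_
  rw [Finset.mul_sum]
  refine Finset.sum_le_sum fun p hp => ?_
  rw [abs_mul]
  exact mul_le_mul (abs_one_sub_le (hh p hp)) (he p hp) (abs_nonneg _) (by norm_num)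

/-- mean of the increment of `tr Z` -/
theorem T1_mean (hZ : Z.IsSymm) (hA : A ⊆ F ×ˢ F)
    (hadm : ∀ p ∈ A, p.1 ≠ p.2 ∧ |Z p.1 p.2| ≤ 1 / 8 ∧ |Z p.1 p.1 * Z p.2 p.2| ≤ 1 / 8)
    (hh : ∀ p ∈ A, |h p.1 p.2| ≤ 1 / 2) (hrow : ∑ p ∈ F ×ˢ F, Xk Z 0 p.1 p.2 = 0) :
    |∑ p ∈ A, (1 - h p.1 p.2) * dT1 Z p -
      2 * ((∑ a ∈ F, Z a a) * ∑ a ∈ F, Xk Z 0 a a) +
      2 * ∑ p ∈ A, h p.1 p.2 * Xk Z 0 p.1 p.2| ≤
    2 * √(((F ×ˢ F) \ A).card : ℝ) *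
      (fr F (Xk Z 0) + nr F (fun a => Z a a) * nr F (fun a => Xk Z 0 a a)) +
    2 * fr F h * (nr F (fun a => Z a a) * nr F (fun a => Xk Z 0 a a)) +
    6 * ((fr F Z + nr F (fun a => Z a a) ^ 2) *
      (fr F (Xk Z 0) + 2 * (nr F (fun a => Z a a) * nr F (fun a => Xk Z 0 a a)))) := by
  set X := Xk Z 0 with hX
  set zd : ι → ℝ := fun a => Z a a with hzd
  set gd : ι → ℝ := fun a => X a a with hgd
  set m : ι × ι → ℝ := fun p => 2 * X p.1 p.2 + Z p.2 p.2 * X p.1 p.1 + Z p.1 p.1 * X p.2 p.2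
    with hm
  -- the error
  have herr := sum_weight_err_le (h := h) hh (e := fun p => dT1 Z p - m p)
    (g := fun p => 4 * (|Z p.1 p.2| + |Z p.1 p.1 * Z p.2 p.2|) *
        (|X p.1 p.2| + |Z p.2 p.2 * X p.1 p.1| + |Z p.1 p.1 * X p.2 p.2|))
    (fun p hp => dT1_pointwise (hadm p hp).1 hZ (hadm p hp).2.1 (hadm p hp).2.2)
  have g1 := sum_small_mul_le (Z := Z) hA X
  have g2 := sum_small_mul_le (Z := Z) hA (fun a b => zd b * gd a)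
  have g3 := sum_small_mul_le (Z := Z) hA (fun a b => zd a * gd b)
  rw [fr_prod' F zd gd] at g2
  rw [fr_prod F zd gd] at g3
  have hsum : ∑ p ∈ A, 4 * (|Z p.1 p.2| + |Z p.1 p.1 * Z p.2 p.2|) *
        (|X p.1 p.2| + |Z p.2 p.2 * X p.1 p.1| + |Z p.1 p.1 * X p.2 p.2|) =
      4 * (∑ p ∈ A, (|Z p.1 p.2| + |Z p.1 p.1 * Z p.2 p.2|) * |X p.1 p.2| +
        ∑ p ∈ A, (|Z p.1 p.2| + |Z p.1 p.1 * Z p.2 p.2|) * |zd p.2 * gd p.1| +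
        ∑ p ∈ A, (|Z p.1 p.2| + |Z p.1 p.1 * Z p.2 p.2|) * |zd p.1 * gd p.2|) := by
    rw [← Finset.sum_add_distrib, ← Finset.sum_add_distrib, Finset.mul_sum]
    refine Finset.sum_congr rfl fun p _ => ?_
    simp only [hzd, hgd]
    ring
  rw [hsum] at herr
  -- the main part
  have p1 := abs_sum_adm_sub_le hA X
  rw [hrow, sub_zero] at p1
  have p2 := abs_sum_adm_sub_le hA (fun a b => zd b * gd a)
  rw [sum_prod_full' F zd gd, fr_prod' F zd gd] at p2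
  have p3 := abs_sum_adm_sub_le hA (fun a b => zd a * gd b)
  rw [sum_prod_full F zd gd, fr_prod F zd gd] at p3
  have p4 := abs_sum_weight_le hA h (fun a b => zd b * gd a)
  rw [fr_prod' F zd gd] at p4
  have p5 := abs_sum_weight_le hA h (fun a b => zd a * gd b)
  rw [fr_prod F zd gd] at p5
  have hdec : ∑ p ∈ A, (1 - h p.1 p.2) * dT1 Z p =
      2 * ∑ p ∈ A, X p.1 p.2 + ∑ p ∈ A, zd p.2 * gd p.1 + ∑ p ∈ A, zd p.1 * gd p.2 -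
      (2 * ∑ p ∈ A, h p.1 p.2 * X p.1 p.2 + ∑ p ∈ A, h p.1 p.2 * (zd p.2 * gd p.1) +
        ∑ p ∈ A, h p.1 p.2 * (zd p.1 * gd p.2)) +
      ∑ p ∈ A, (1 - h p.1 p.2) * (dT1 Z p - m p) := by
    rw [Finset.mul_sum, Finset.mul_sum, ← Finset.sum_add_distrib, ← Finset.sum_add_distrib,
      ← Finset.sum_add_distrib, ← Finset.sum_add_distrib, ← Finset.sum_sub_distrib,
      ← Finset.sum_add_distrib]
    refine Finset.sum_congr rfl fun p _ => ?_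
    simp only [hm, hzd, hgd]
    ring
  rw [hdec]
  rw [abs_le] at herr p1 p2 p3 p4 p5 ⊢
  constructor
  · linarith [herr.1, p1.1, p2.1, p3.1, p4.2, p5.2]
  · linarith [herr.2, p1.2, p2.2, p3.2, p4.1, p5.1]

theorem small_le {z pq : ℝ} (hz : |z| ≤ 1 / 8) (hpq : |pq| ≤ 1 / 8) : |z| + |pq| ≤ 1 / 4 := by
  linarith

/-- pointwise bound of the increment of `tr Z` -/
theorem dT1_sq_le (hZ : Z.IsSymm) {p : ι × ι}
    (hp : p.1 ≠ p.2 ∧ |Z p.1 p.2| ≤ 1 / 8 ∧ |Z p.1 p.1 * Z p.2 p.2| ≤ 1 / 8) :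
    dT1 Z p ^ 2 ≤ 27 * Xk Z 0 p.1 p.2 ^ 2 + 12 * (Z p.2 p.2 * Xk Z 0 p.1 p.1) ^ 2 +
      12 * (Z p.1 p.1 * Xk Z 0 p.2 p.2) ^ 2 := by
  have h1 := dT1_pointwise hp.1 hZ hp.2.1 hp.2.2
  change |dT1 Z p - _| ≤ _ at h1
  have h2 := small_le hp.2.1 hp.2.2
  set s := Xk Z 0 p.1 p.2
  set u := Z p.2 p.2 * Xk Z 0 p.1 p.1
  set v := Z p.1 p.1 * Xk Z 0 p.2 p.2
  have h3 : |dT1 Z p| ≤ 3 * |s| + 2 * |u| + 2 * |v| := by
    have k1 : |dT1 Z p| ≤ |dT1 Z p - (2 * s + u + v)| + |2 * s + u + v| := by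
      have := abs_add_le (dT1 Z p - (2 * s + u + v)) (2 * s + u + v)
      simpa using this
    have k2 := abs_add_three (2 * s) u v
    rw [abs_mul, abs_two] at k2
    have k3 : 4 * (|Z p.1 p.2| + |Z p.1 p.1 * Z p.2 p.2|) * (|s| + |u| + |v|) ≤
        1 * (|s| + |u| + |v|) :=
      mul_le_mul_of_nonneg_right (by linarith) (by positivity)
    linarith
  have h4 : dT1 Z p ^ 2 ≤ (3 * |s| + 2 * |u| + 2 * |v|) ^ 2 := by
    rw [← sq_abs]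
    exact pow_le_pow_left₀ (abs_nonneg _) h3 2
  refine h4.trans ?_
  rw [← sq_abs s, ← sq_abs u, ← sq_abs v]
  nlinarith [sq_nonneg (3 * |s| - 2 * |u|), sq_nonneg (3 * |s| - 2 * |v|),
    sq_nonneg (2 * |u| - 2 * |v|)]

/-- second moment of the increment of `tr Z` -/
theorem T1_sq (hZ : Z.IsSymm) (hA : A ⊆ F ×ˢ F)
    (hadm : ∀ p ∈ A, p.1 ≠ p.2 ∧ |Z p.1 p.2| ≤ 1 / 8 ∧ |Z p.1 p.1 * Z p.2 p.2| ≤ 1 / 8) :
    ∑ p ∈ A, dT1 Z p ^ 2 ≤ 27 * fr F (Xk Z 0) ^ 2 +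
      24 * (nr F (fun a => Z a a) * nr F (fun a => Xk Z 0 a a)) ^ 2 := by
  have h1 : ∑ p ∈ A, dT1 Z p ^ 2 ≤ ∑ p ∈ A, (27 * Xk Z 0 p.1 p.2 ^ 2 +
      12 * (Z p.2 p.2 * Xk Z 0 p.1 p.1) ^ 2 + 12 * (Z p.1 p.1 * Xk Z 0 p.2 p.2) ^ 2) :=
    Finset.sum_le_sum fun p hp => dT1_sq_le hZ (hadm p hp)
  rw [Finset.sum_add_distrib, Finset.sum_add_distrib, ← Finset.mul_sum, ← Finset.mul_sum,
    ← Finset.mul_sum] at h1
  have s1 := sum_sq_le hA (Xk Z 0)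
  have s2 := sum_sq_le hA (fun a b => (fun a => Z a a) b * (fun a => Xk Z 0 a a) a)
  have s3 := sum_sq_le hA (fun a b => (fun a => Z a a) a * (fun a => Xk Z 0 a a) b)
  rw [fr_prod'] at s2
  rw [fr_prod] at s3
  simp only at s2 s3
  linarith

/-- mean of the increment of `tr Z² - N` -/
theorem T2_mean (hZ : Z.IsSymm) (hA : A ⊆ F ×ˢ F)
    (hadm : ∀ p ∈ A, p.1 ≠ p.2 ∧ |Z p.1 p.2| ≤ 1 / 8 ∧ |Z p.1 p.1 * Z p.2 p.2| ≤ 1 / 8)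
    (hh : ∀ p ∈ A, |h p.1 p.2| ≤ 1 / 2) (hrow : ∑ p ∈ F ×ˢ F, Xk Z 1 p.1 p.2 = 0) :
    |∑ p ∈ A, (1 - h p.1 p.2) * dT2 Z p -
      (4 * ((∑ a ∈ F, Z a a) * ∑ a ∈ F, Xk Z 1 a a) + 2 * (∑ a ∈ F, Xk Z 0 a a) ^ 2) +
      4 * ∑ p ∈ A, h p.1 p.2 * Xk Z 1 p.1 p.2| ≤
    4 * √(((F ×ˢ F) \ A).card : ℝ) *
      (fr F (Xk Z 1) + nr F (fun a => Z a a) * nr F (fun a => Xk Z 1 a a) +
        nr F (fun a => Xk Z 0 a a) ^ 2) +
    4 * fr F h * (nr F (fun a => Z a a) * nr F (fun a => Xk Z 1 a a) +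
        nr F (fun a => Xk Z 0 a a) ^ 2) +
    18 * ((fr F Z + nr F (fun a => Z a a) ^ 2) *
      (fr F (Xk Z 1) + 2 * (nr F (fun a => Z a a) * nr F (fun a => Xk Z 1 a a)) +
        nr F (fun a => Xk Z 0 a a) ^ 2)) +
    30 * (fr F (Xk Z 0) ^ 2 +
      2 * (nr F (fun a => Z a a) * nr F (fun a => Xk Z 0 a a)) ^ 2) := by
  set X := Xk Z 0 with hX
  set Y := Xk Z 1 with hY
  set zd : ι → ℝ := fun a => Z a a with hzd
  set gd : ι → ℝ := fun a => X a a with hgd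
  set yd : ι → ℝ := fun a => Y a a with hyd
  set m : ι × ι → ℝ := fun p => 4 * Y p.1 p.2 + 2 * (Z p.2 p.2 * Y p.1 p.1) +
    2 * (Z p.1 p.1 * Y p.2 p.2) + 2 * (X p.1 p.1 * X p.2 p.2) with hm
  have herr := sum_weight_err_le (h := h) hh (e := fun p => dT2 Z p - m p)
    (g := fun p => 12 * ((|Z p.1 p.2| + |Z p.1 p.1 * Z p.2 p.2|) *
        (|Y p.1 p.2| + |Z p.2 p.2 * Y p.1 p.1| + |Z p.1 p.1 * Y p.2 p.2| +
          |X p.1 p.1 * X p.2 p.2|)) +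
      20 * (X p.1 p.2 ^ 2 + (Z p.2 p.2 * X p.1 p.1) ^ 2 + (Z p.1 p.1 * X p.2 p.2) ^ 2))
    (fun p hp => dT2_pointwise (hadm p hp).1 hZ (hadm p hp).2.1 (hadm p hp).2.2)
  have g1 := sum_small_mul_le (Z := Z) hA Y
  have g2 := sum_small_mul_le (Z := Z) hA (fun a b => zd b * yd a)
  have g3 := sum_small_mul_le (Z := Z) hA (fun a b => zd a * yd b)
  have g4 := sum_small_mul_le (Z := Z) hA (fun a b => gd a * gd b)
  rw [fr_prod' F zd yd] at g2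
  rw [fr_prod F zd yd] at g3
  rw [fr_prod F gd gd, ← sq] at g4
  have s1 := sum_sq_le hA X
  have s2 := sum_sq_le hA (fun a b => zd b * gd a)
  have s3 := sum_sq_le hA (fun a b => zd a * gd b)
  rw [fr_prod' F zd gd] at s2
  rw [fr_prod F zd gd] at s3
  have hsum : ∑ p ∈ A, (12 * ((|Z p.1 p.2| + |Z p.1 p.1 * Z p.2 p.2|) *
        (|Y p.1 p.2| + |Z p.2 p.2 * Y p.1 p.1| + |Z p.1 p.1 * Y p.2 p.2| +
          |X p.1 p.1 * X p.2 p.2|)) +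
      20 * (X p.1 p.2 ^ 2 + (Z p.2 p.2 * X p.1 p.1) ^ 2 + (Z p.1 p.1 * X p.2 p.2) ^ 2)) =
      12 * (∑ p ∈ A, (|Z p.1 p.2| + |Z p.1 p.1 * Z p.2 p.2|) * |Y p.1 p.2| +
        ∑ p ∈ A, (|Z p.1 p.2| + |Z p.1 p.1 * Z p.2 p.2|) * |zd p.2 * yd p.1| +
        ∑ p ∈ A, (|Z p.1 p.2| + |Z p.1 p.1 * Z p.2 p.2|) * |zd p.1 * yd p.2| +
        ∑ p ∈ A, (|Z p.1 p.2| + |Z p.1 p.1 * Z p.2 p.2|) * |gd p.1 * gd p.2|) +
      20 * (∑ p ∈ A, X p.1 p.2 ^ 2 + ∑ p ∈ A, (zd p.2 * gd p.1) ^ 2 +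
        ∑ p ∈ A, (zd p.1 * gd p.2) ^ 2) := by
    rw [← Finset.sum_add_distrib, ← Finset.sum_add_distrib, ← Finset.sum_add_distrib,
      ← Finset.sum_add_distrib, ← Finset.sum_add_distrib, Finset.mul_sum, Finset.mul_sum,
      ← Finset.sum_add_distrib]
    refine Finset.sum_congr rfl fun p _ => ?_
    simp only [hzd, hgd, hyd]
    ring
  rw [hsum] at herr
  -- the main part
  have p1 := abs_sum_adm_sub_le hA Y
  rw [hrow, sub_zero] at p1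
  have p2 := abs_sum_adm_sub_le hA (fun a b => zd b * yd a)
  rw [sum_prod_full' F zd yd, fr_prod' F zd yd] at p2
  have p3 := abs_sum_adm_sub_le hA (fun a b => zd a * yd b)
  rw [sum_prod_full F zd yd, fr_prod F zd yd] at p3
  have p4 := abs_sum_adm_sub_le hA (fun a b => gd a * gd b)
  rw [sum_prod_full F gd gd, fr_prod F gd gd] at p4
  have q2 := abs_sum_weight_le hA h (fun a b => zd b * yd a)
  rw [fr_prod' F zd yd] at q2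
  have q3 := abs_sum_weight_le hA h (fun a b => zd a * yd b)
  rw [fr_prod F zd yd] at q3
  have q4 := abs_sum_weight_le hA h (fun a b => gd a * gd b)
  rw [fr_prod F gd gd] at q4
  have hdec : ∑ p ∈ A, (1 - h p.1 p.2) * dT2 Z p =
      4 * ∑ p ∈ A, Y p.1 p.2 + 2 * ∑ p ∈ A, zd p.2 * yd p.1 + 2 * ∑ p ∈ A, zd p.1 * yd p.2 +
        2 * ∑ p ∈ A, gd p.1 * gd p.2 -
      (4 * ∑ p ∈ A, h p.1 p.2 * Y p.1 p.2 + 2 * ∑ p ∈ A, h p.1 p.2 * (zd p.2 * yd p.1) +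
        2 * ∑ p ∈ A, h p.1 p.2 * (zd p.1 * yd p.2) +
        2 * ∑ p ∈ A, h p.1 p.2 * (gd p.1 * gd p.2)) +
      ∑ p ∈ A, (1 - h p.1 p.2) * (dT2 Z p - m p) := by
    simp only [Finset.mul_sum]
    simp only [← Finset.sum_add_distrib, ← Finset.sum_sub_distrib]
    refine Finset.sum_congr rfl fun p _ => ?_
    simp only [hm, hzd, hgd, hyd]
    ring
  rw [hdec]
  rw [abs_le] at herr p1 p2 p3 p4 q2 q3 q4 ⊢
  have hsg : (∑ a ∈ F, gd a) * ∑ b ∈ F, gd b = (∑ a ∈ F, gd a) ^ 2 := by ring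
  rw [hsg] at p4
  have c0 := Real.sqrt_nonneg (((F ×ˢ F) \ A).card : ℝ)
  have c1 := fr_nonneg F h
  have c2 := nr_nonneg F gd
  have n1 := mul_nonneg c0 (sq_nonneg (nr F gd))
  have n2 := mul_nonneg c1 (sq_nonneg (nr F gd))
  simp only [← sq] at p4 q4
  constructor
  · linarith [herr.1, p1.1, p2.1, p3.1, p4.1, q2.2, q3.2, q4.2]
  · linarith [herr.2, p1.2, p2.2, p3.2, p4.2, q2.1, q3.1, q4.1]

theorem sq7_le (a b c d e f g : ℝ) :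
    (a + b + c + d + e + f + g) ^ 2 ≤
      7 * (a ^ 2 + b ^ 2 + c ^ 2 + d ^ 2 + e ^ 2 + f ^ 2 + g ^ 2) := by
  have h := Finset.sum_mul_sq_le_sq_mul_sq (Finset.univ : Finset (Fin 7)) (fun _ => (1 : ℝ))
    ![a, b, c, d, e, f, g]
  simp only [one_mul, one_pow, Finset.sum_const, Finset.card_univ, Fintype.card_fin,
    nsmul_eq_mul, mul_one, Fin.sum_univ_succ] at h
  simp at h
  linarith

/-- pointwise bound of the increment of `tr Z² - N` -/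
theorem dT2_sq_le (hZ : Z.IsSymm) {p : ι × ι}
    (hp : p.1 ≠ p.2 ∧ |Z p.1 p.2| ≤ 1 / 8 ∧ |Z p.1 p.1 * Z p.2 p.2| ≤ 1 / 8) :
    dT2 Z p ^ 2 ≤ 343 * Xk Z 1 p.1 p.2 ^ 2 + 175 * (Z p.2 p.2 * Xk Z 1 p.1 p.1) ^ 2 +
      175 * (Z p.1 p.1 * Xk Z 1 p.2 p.2) ^ 2 + 175 * (Xk Z 0 p.1 p.1 * Xk Z 0 p.2 p.2) ^ 2 +
      2800 * (Xk Z 0 p.1 p.2) ^ 4 + 2800 * (Z p.2 p.2 * Xk Z 0 p.1 p.1) ^ 4 +
      2800 * (Z p.1 p.1 * Xk Z 0 p.2 p.2) ^ 4 := by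
  have h1 := dT2_pointwise hp.1 hZ hp.2.1 hp.2.2
  change |dT2 Z p - _| ≤ _ at h1
  have h2 := small_le hp.2.1 hp.2.2
  set c := Xk Z 1 p.1 p.2
  set x := Z p.2 p.2 * Xk Z 1 p.1 p.1
  set y := Z p.1 p.1 * Xk Z 1 p.2 p.2
  set w := Xk Z 0 p.1 p.1 * Xk Z 0 p.2 p.2
  set s := Xk Z 0 p.1 p.2
  set u := Z p.2 p.2 * Xk Z 0 p.1 p.1
  set v := Z p.1 p.1 * Xk Z 0 p.2 p.2
  have h3 : |dT2 Z p| ≤ 7 * |c| + 5 * |x| + 5 * |y| + 5 * |w| + 20 * s ^ 2 + 20 * u ^ 2 +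
      20 * v ^ 2 := by
    have k1 : |dT2 Z p| ≤ |dT2 Z p - (4 * c + 2 * x + 2 * y + 2 * w)| +
        |4 * c + 2 * x + 2 * y + 2 * w| := by
      have := abs_add_le (dT2 Z p - (4 * c + 2 * x + 2 * y + 2 * w)) (4 * c + 2 * x + 2 * y + 2 * w)
      simpa using this
    have k2 := abs_add_three (4 * c) (2 * x) (2 * y)
    have k2' := abs_add_le (4 * c + 2 * x + 2 * y) (2 * w)
    rw [abs_mul 4 c, abs_mul 2 x, abs_mul 2 y, abs_two, show |(4 : ℝ)| = 4 by norm_num] at k2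
    rw [abs_mul 2 w, abs_two] at k2'
    have k3 : (|Z p.1 p.2| + |Z p.1 p.1 * Z p.2 p.2|) * (|c| + |x| + |y| + |w|) ≤
        1 / 4 * (|c| + |x| + |y| + |w|) :=
      mul_le_mul_of_nonneg_right h2 (by positivity)
    linarith
  have h4 : dT2 Z p ^ 2 ≤ (7 * |c| + 5 * |x| + 5 * |y| + 5 * |w| + 20 * s ^ 2 + 20 * u ^ 2 +
      20 * v ^ 2) ^ 2 := by
    rw [← sq_abs]
    exact pow_le_pow_left₀ (abs_nonneg _) h3 2
  refine h4.trans ((sq7_le _ _ _ _ _ _ _).trans ?_)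
  rw [mul_pow, mul_pow, mul_pow, mul_pow, sq_abs, sq_abs, sq_abs, sq_abs]
  apply le_of_eq
  ring

theorem Xk_zero_ne {a b : ι} (hab : a ≠ b) : Xk Z 0 a b = (Z ^ 2) a b := by
  simp [Xk, Matrix.sub_apply, Matrix.one_apply_ne hab]

/-- second moment of the increment of `tr Z² - N` -/
theorem T2_sq (hZ : Z.IsSymm) (hA : A ⊆ F ×ˢ F)
    (hadm : ∀ p ∈ A, p.1 ≠ p.2 ∧ |Z p.1 p.2| ≤ 1 / 8 ∧ |Z p.1 p.1 * Z p.2 p.2| ≤ 1 / 8) :
    ∑ p ∈ A, dT2 Z p ^ 2 ≤ 343 * fr F (Xk Z 1) ^ 2 +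
      350 * (nr F (fun a => Z a a) * nr F (fun a => Xk Z 1 a a)) ^ 2 +
      175 * (nr F (fun a => Xk Z 0 a a) ^ 2) ^ 2 +
      2800 * (nr F (fun a => (Z ^ 2) a a) ^ 2) ^ 2 +
      5600 * ((nr F (fun a => Z a a) ^ 2) ^ 2 * (nr F (fun a => Xk Z 0 a a) ^ 2) ^ 2) := by
  have h1 : ∑ p ∈ A, dT2 Z p ^ 2 ≤ ∑ p ∈ A, (343 * Xk Z 1 p.1 p.2 ^ 2 +
      175 * (Z p.2 p.2 * Xk Z 1 p.1 p.1) ^ 2 +
      175 * (Z p.1 p.1 * Xk Z 1 p.2 p.2) ^ 2 + 175 * (Xk Z 0 p.1 p.1 * Xk Z 0 p.2 p.2) ^ 2 +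
      2800 * (Xk Z 0 p.1 p.2) ^ 4 + 2800 * (Z p.2 p.2 * Xk Z 0 p.1 p.1) ^ 4 +
      2800 * (Z p.1 p.1 * Xk Z 0 p.2 p.2) ^ 4) :=
    Finset.sum_le_sum fun p hp => dT2_sq_le hZ (hadm p hp)
  simp only [Finset.sum_add_distrib, ← Finset.mul_sum] at h1
  have s1 := sum_sq_le hA (Xk Z 1)
  have s2 := sum_sq_le hA (fun a b => (fun a => Z a a) b * (fun a => Xk Z 1 a a) a)
  have s3 := sum_sq_le hA (fun a b => (fun a => Z a a) a * (fun a => Xk Z 1 a a) b)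
  have s4 := sum_sq_le hA (fun a b => (fun a => Xk Z 0 a a) a * (fun a => Xk Z 0 a a) b)
  rw [fr_prod'] at s2
  rw [fr_prod] at s3 s4
  have t1 := sum_prod_four_le hA (fun a => Z a a) (fun a => Xk Z 0 a a)
  have t2 := sum_prod_four_le hA (fun a => Xk Z 0 a a) (fun a => Z a a)
  have t2' : ∑ p ∈ A, (Z p.2 p.2 * Xk Z 0 p.1 p.1) ^ 4 ≤
      (nr F (fun a => Xk Z 0 a a) ^ 2) ^ 2 * (nr F (fun a => Z a a) ^ 2) ^ 2 := by
    refine le_trans (le_of_eq (Finset.sum_congr rfl fun p _ => ?_)) t2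
    rw [mul_comm]
  have t3 : ∑ p ∈ A, (Xk Z 0 p.1 p.2) ^ 4 ≤ (nr F (fun a => (Z ^ 2) a a) ^ 2) ^ 2 := by
    have e1 : ∀ p ∈ A, (Xk Z 0 p.1 p.2) ^ 4 ≤ ((Z ^ 2) p.1 p.1 * (Z ^ 2) p.2 p.2) ^ 2 := by
      intro p hp
      rw [Xk_zero_ne (hadm p hp).1]
      have k := abs_pow_entry_le hZ 0 p.1 p.2
      rw [pow_zero, one_mul] at k
      have k2 := pow_le_pow_left₀ (abs_nonneg _) k 4
      have n1 := sq_diag_nonneg hZ p.1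
      have n2 := sq_diag_nonneg hZ p.2
      calc ((Z ^ 2) p.1 p.2) ^ 4 = |(Z ^ (0 + 2)) p.1 p.2| ^ 4 := by
            rw [Even.pow_abs (by decide)]
        _ ≤ _ := k2
        _ = ((√((Z ^ 2) p.1 p.1) ^ 2) * (√((Z ^ 2) p.2 p.2) ^ 2)) ^ 2 := by ring
        _ = _ := by rw [Real.sq_sqrt n1, Real.sq_sqrt n2]
    refine (Finset.sum_le_sum e1).trans ?_
    have k := sum_sq_le hA (fun a b => (fun a => (Z ^ 2) a a) a * (fun a => (Z ^ 2) a a) b)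
    rw [fr_prod] at k
    refine k.trans (le_of_eq ?_)
    ring
  simp only at s2 s3 s4 t1
  linarith

end Vale.Agent.P049.TS.D12
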