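import Vale.Agent.P049.TS.Drift.T12b
import Vale.Agent.P049.TS.Mat.Basic

/-!
Evaluation of the array norms occurring in `T12b` in terms of `T₂, T₄, N, S, V, b`.
-/

set_option linter.unusedSectionVars false

namespace Vale.Agent.P049.TS.D12

open Matrix Finset

variable {ι : Type*} [Fintype ι] [DecidableEq ι]

variable {Z : Matrix ι ι ℝ} {F : Finset ι} {A : Finset (ι × ι)} {h : ι → ι → ℝ}

/-- `Z` vanishes outside the free stubs -/
def Supp (F : Finset ι) (Z : Matrix ι ι ℝ) : Prop := ∀ a, a ∉ F → ∀ b, Z a b = 0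

theorem Supp.right (hF : Supp F Z) (hZ : Z.IsSymm) (a : ι) {b : ι} (hb : b ∉ F) : Z a b = 0 := by
  rw [← hZ.apply a b]; exact hF b hb a

theorem isSymm_pow (hZ : Z.IsSymm) (k : ℕ) : (Z ^ k).IsSymm := by
  rw [Matrix.IsSymm, Matrix.transpose_pow, hZ.eq]

theorem Supp.pow (hF : Supp F Z) (k : ℕ) : Supp F (Z ^ (k + 1)) := by
  intro a ha b
  rw [pow_succ', Matrix.mul_apply]
  exact Finset.sum_eq_zero fun c _ => by rw [hF a ha c, zero_mul]

theorem sum_pairs_univ {f : ι → ι → ℝ} (hf : ∀ a b, a ∉ F ∨ b ∉ F → f a b = 0) :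
    ∑ p ∈ F ×ˢ F, f p.1 p.2 = ∑ a, ∑ b, f a b := by
  rw [Finset.sum_product]
  have h1 : ∀ a, ∑ b ∈ F, f a b = ∑ b, f a b := fun a =>
    Finset.sum_subset (Finset.subset_univ F) fun b _ hb => hf a b (Or.inr hb)
  simp only [h1]
  exact Finset.sum_subset (Finset.subset_univ F) fun a _ ha =>
    Finset.sum_eq_zero fun b _ => hf a b (Or.inl ha)

theorem trace_sq_eq {M : Matrix ι ι ℝ} (hM : M.IsSymm) : (M ^ 2).trace = ∑ a, ∑ b, M a b ^ 2 := by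
  rw [sq M, Matrix.trace]
  refine Finset.sum_congr rfl fun a _ => ?_
  rw [Matrix.diag_apply, Matrix.mul_apply]
  exact Finset.sum_congr rfl fun b _ => by rw [sq, hM.apply a b]

/-- `‖Z‖² = T₂` -/
theorem fr_Z (hZ : Z.IsSymm) (hF : Supp F Z) : fr F Z ^ 2 = (Z ^ 2).trace := by
  refine (fr_sq F _).trans ?_
  rw [trace_sq_eq hZ]
  refine sum_pairs_univ (f := fun a b => Z a b ^ 2) fun a b hab => ?_
  rcases hab with ha | hb
  · simp only [hF a ha b]; norm_num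
  · simp only [hF.right hZ a hb]; norm_num

theorem sum_diag_F (hF : Supp F Z) : ∑ a ∈ F, Z a a = Z.trace := by
  rw [Matrix.trace]
  exact Finset.sum_subset (Finset.subset_univ F) fun a _ ha => hF a ha a

theorem sum_diag_X0 (hF : Supp F Z) : ∑ a ∈ F, Xk Z 0 a a = (Z ^ 2).trace - F.card := by
  have h1 := sum_diag_F (hF.pow 1)
  simp only [Xk_eq, pow_zero, Matrix.sub_apply, Matrix.one_apply_eq, Finset.sum_sub_distrib,
    Finset.sum_const, nsmul_eq_mul, mul_one, zero_add]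
  rw [h1]

theorem sum_diag_X1 (hF : Supp F Z) : ∑ a ∈ F, Xk Z 1 a a = (Z ^ 3).trace - Z.trace := by
  have h1 := sum_diag_F (hF.pow 2)
  have h2 := sum_diag_F hF
  simp only [Xk_eq, Matrix.sub_apply, Finset.sum_sub_distrib, pow_one]
  rw [h2, ← h1]

/-- `‖Z² - 1‖² = T₄ - 2 T₂ + N` -/
theorem fr_X0 (hZ : Z.IsSymm) (hF : Supp F Z) :
    fr F (Xk Z 0) ^ 2 = (Z ^ 4).trace - 2 * (Z ^ 2).trace + F.card := by
  have h1 : ∑ p ∈ F ×ˢ F, (Z ^ 2) p.1 p.2 ^ 2 = (Z ^ 4).trace := by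
    have := fr_Z (isSymm_pow hZ 2) (hF.pow 1)
    rw [← pow_mul] at this
    exact (fr_sq F _).symm.trans this
  refine (fr_sq F _).trans ?_
  have h2 : ∀ p ∈ F ×ˢ F, Xk Z 0 p.1 p.2 ^ 2 = (Z ^ 2) p.1 p.2 ^ 2 +
      (if p.1 = p.2 then 1 - 2 * (Z ^ 2) p.1 p.2 else 0) := by
    intro p _
    rw [Xk_eq, pow_zero, Matrix.sub_apply, Matrix.one_apply, zero_add]
    split_ifs <;> ring
  rw [Finset.sum_congr rfl h2, Finset.sum_add_distrib, h1]
  have h3 : ∑ p ∈ F ×ˢ F, (if p.1 = p.2 then 1 - 2 * (Z ^ 2) p.1 p.2 else 0) =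
      (F.card : ℝ) - 2 * (Z ^ 2).trace := by
    rw [Finset.sum_product]
    have : ∀ a ∈ F, ∑ b ∈ F, (if a = b then 1 - 2 * (Z ^ 2) a b else 0) =
        1 - 2 * (Z ^ 2) a a := by
      intro a ha
      rw [Finset.sum_ite_eq, if_pos ha]
    rw [Finset.sum_congr rfl this, Finset.sum_sub_distrib, ← Finset.mul_sum,
      sum_diag_F (hF.pow 1)]
    simp
  rw [h3]
  ring

/-- the restriction of a matrix to `F × F` -/
def resF (F : Finset ι) (M : Matrix ι ι ℝ) : Matrix ι ι ℝ :=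
  Matrix.of fun a b => if a ∈ F ∧ b ∈ F then M a b else 0

theorem frob_resF (M : Matrix ι ι ℝ) : Mat.frob (resF F M) = fr F M ^ 2 := by
  refine Eq.trans ?_ (fr_sq F _).symm
  have : ∀ p ∈ F ×ˢ F, M p.1 p.2 ^ 2 = (resF F M) p.1 p.2 ^ 2 := by
    intro p hp
    rw [Finset.mem_product] at hp
    simp [resF, hp.1, hp.2]
  rw [Finset.sum_congr rfl this]
  symm
  refine sum_pairs_univ (f := fun a b => (resF F M) a b ^ 2) fun a b hab => ?_
  have : ¬ (a ∈ F ∧ b ∈ F) := by tauto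
  simp [resF, this]

/-- `‖Z^j (Z² - 1)‖ ≤ b^j ‖Z² - 1‖` -/
theorem fr_Xk_succ_le (hZ : Z.IsSymm) (hF : Supp F Z) {b : ℝ} (hb : Mat.OpB Z b) (k : ℕ) :
    fr F (Xk Z (k + 1)) ^ 2 ≤ b ^ 2 * fr F (Xk Z k) ^ 2 := by
  have h0 := frob_resF (F := F) (Xk Z k)
  refine le_trans ?_ ((hb.frob_mul_le _).trans (le_of_eq (congrArg (fun x => b ^ 2 * x) h0)))
  refine (fr_sq F _).trans_le ?_
  have : ∀ p ∈ F ×ˢ F, Xk Z (k + 1) p.1 p.2 ^ 2 = (Z * resF F (Xk Z k)) p.1 p.2 ^ 2 := by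
    intro p hp
    rw [Finset.mem_product] at hp
    congr 1
    rw [Xk, pow_succ', Matrix.mul_assoc, ← Xk, Matrix.mul_apply, Matrix.mul_apply]
    refine Finset.sum_congr rfl fun c _ => ?_
    by_cases hc : c ∈ F
    · simp [resF, hc, hp.2]
    · rw [hF.right hZ _ hc]; ring
  rw [Finset.sum_congr rfl this]
  have h2 : ∑ p ∈ F ×ˢ F, (Z * resF F (Xk Z k)) p.1 p.2 ^ 2 ≤
      ∑ p : ι × ι, (Z * resF F (Xk Z k)) p.1 p.2 ^ 2 :=
    Finset.sum_le_sum_of_subset_of_nonneg (Finset.subset_univ _) fun _ _ _ => sq_nonneg _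
  refine h2.trans (le_of_eq ?_)
  rw [Mat.frob, Fintype.sum_prod_type]

theorem fr_Xk_le (hZ : Z.IsSymm) (hF : Supp F Z) {b : ℝ} (hb0 : 0 ≤ b) (hb : Mat.OpB Z b) (k : ℕ) :
    fr F (Xk Z k) ≤ b ^ k * fr F (Xk Z 0) := by
  induction k with
  | zero => simp
  | succ k ih =>
    have h1 := fr_Xk_succ_le hZ hF hb k
    have h2 : fr F (Xk Z (k + 1)) ≤ b * fr F (Xk Z k) := by
      refine abs_le_of_sq_le_sq' ?_ (mul_nonneg hb0 (fr_nonneg _ _)) |>.2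
      rw [mul_pow]; exact h1
    calc _ ≤ b * fr F (Xk Z k) := h2
      _ ≤ b * (b ^ k * fr F (Xk Z 0)) := mul_le_mul_of_nonneg_left ih hb0
      _ = _ := by ring

/-- the indicator of `F` -/
def oneF (F : Finset ι) : ι → ℝ := fun a => if a ∈ F then 1 else 0

theorem pow_mulVec_oneF (hF : Supp F Z) (hZ : Z.IsSymm) (hrow : ∀ a ∈ F, ∑ b, Z a b = 1) (k : ℕ) :
    (Z ^ k) *ᵥ oneF F = oneF F := by
  have h1 : Z *ᵥ oneF F = oneF F := by
    ext a
    by_cases ha : a ∈ F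
    · have : (Z *ᵥ oneF F) a = ∑ b, Z a b := by
        simp only [Matrix.mulVec, dotProduct, oneF]
        refine Finset.sum_congr rfl fun b _ => ?_
        by_cases hb : b ∈ F
        · simp [hb]
        · simp [hb, hF.right hZ a hb]
      rw [this, hrow a ha]; simp [oneF, ha]
    · simp only [Matrix.mulVec, dotProduct, oneF, ha, if_false]
      exact Finset.sum_eq_zero fun b _ => by rw [hF a ha b, zero_mul]
  induction k with
  | zero => simp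
  | succ k ih => rw [pow_succ, ← Matrix.mulVec_mulVec, h1, ih]

/-- the full sums of the first order arrays vanish -/
theorem sum_Xk (hF : Supp F Z) (hZ : Z.IsSymm) (hrow : ∀ a ∈ F, ∑ b, Z a b = 1) (k : ℕ) :
    ∑ p ∈ F ×ˢ F, Xk Z k p.1 p.2 = 0 := by
  have h1 : ∀ j, ∑ p ∈ F ×ˢ F, (Z ^ j) p.1 p.2 = F.card := by
    intro j
    have h2 : oneF F ⬝ᵥ ((Z ^ j) *ᵥ oneF F) = F.card := by
      rw [pow_mulVec_oneF hF hZ hrow]
      simp [dotProduct, oneF]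
    rw [← h2, Finset.sum_product]
    simp only [dotProduct, Matrix.mulVec, oneF, mul_ite, mul_one, mul_zero, ite_mul, one_mul,
      zero_mul, Finset.sum_ite_mem, Finset.univ_inter]
  simp only [Xk_eq, Matrix.sub_apply, Finset.sum_sub_distrib, h1, sub_self]

/-- `Σ ((Z³ - Z)_aa)² ≤ 6 b² N + 2 S` -/
theorem nr_X1_le (hZ : Z.IsSymm) (hF : Supp F Z) {b V2 S : ℝ} (hb0 : 0 ≤ b) (hb : Mat.OpB Z b)
    (hV2 : ∑ a ∈ F, (Z ^ 2) a a ^ 2 ≤ V2) (hS : ∑ a ∈ F, Z a a ^ 2 ≤ S) :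
    nr F (fun a => Xk Z 1 a a) ^ 2 ≤ 2 * b ^ 2 * V2 + 2 * S := by
  rw [nr_sq]
  have h1 := hb.sum_diag_sq_le hZ hb0 1
  have h2 : ∑ a, (Z ^ 2) a a ^ 2 = ∑ a ∈ F, (Z ^ 2) a a ^ 2 := by
    symm
    exact Finset.sum_subset (Finset.subset_univ F) fun a _ ha => by rw [hF.pow 1 a ha a]; norm_num
  have h3 : ∑ a ∈ F, (Z ^ 3) a a ^ 2 ≤ ∑ a, (Z ^ 3) a a ^ 2 :=
    Finset.sum_le_sum_of_subset_of_nonneg (Finset.subset_univ F) fun _ _ _ => sq_nonneg _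
  rw [h2] at h1
  norm_num at h1
  have h4 : ∑ a ∈ F, Xk Z 1 a a ^ 2 ≤ ∑ a ∈ F, (2 * (Z ^ 3) a a ^ 2 + 2 * Z a a ^ 2) := by
    refine Finset.sum_le_sum fun a _ => ?_
    rw [Xk_eq, Matrix.sub_apply, pow_one]
    nlinarith [sq_nonneg ((Z ^ 3) a a + Z a a)]
  rw [Finset.sum_add_distrib, ← Finset.mul_sum, ← Finset.mul_sum] at h4
  have h5 := mul_le_mul_of_nonneg_left hV2 (sq_nonneg b)
  linarith

end Vale.Agent.P049.TS.D12
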